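import Vale.Agent.P137.Final

/-! # P137: endpoint Sobolev regularity of the uncentred maximal function, every d ≥ 2 -/

namespace Vale.Agent.Results.P137.UncentredEndpoint

open MeasureTheory Vale.Agent.P137

/-- For `d ≥ 2` and `f` in `W^{1,1}` (integrable, with integrable weak partial derivatives `G i`),
the uncentred maximal function is a.e. finite, locally integrable, and has integrable weak partial
derivatives `H i` with `∫ |∇ Mf| ≤ C_d ∫ |∇ f|`. -/
theorem result : ∀ d : ℕ, 2 ≤ d → ∃ C : ℝ,
    ∀ (f : EuclideanSpace ℝ (Fin d) → ℝ) (G : Fin d → EuclideanSpace ℝ (Fin d) → ℝ),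
      Integrable f → (∀ i, Integrable (G i) ∧ IsWeakPartial f (G i) i) →
      (∀ᵐ x, maxFn f x < ⊤) ∧ LocallyIntegrable (fun x => (maxFn f x).toReal) ∧
      ∃ H : Fin d → EuclideanSpace ℝ (Fin d) → ℝ,
        (∀ i, Integrable (H i) ∧ IsWeakPartial (fun x => (maxFn f x).toReal) (H i) i) ∧
        ∫ x, gradNorm H x ≤ C * ∫ x, gradNorm G x :=
  Vale.Agent.P137.mainResult

end Vale.Agent.Results.P137.UncentredEndpoint
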